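import Vale.Agent.P011UQ6.Ldv
import Vale.Agent.P011UHT.Gal
import Vale.Agent.P011.H380.Good7.SplitMaxF
import Vale.Agent.P011.W.Compl
import Vale.Agent.P011.H279.SqrtB

/-!
Projective actions of prime exponent split over the cyclotomic towers.
-/

open Module IntermediateField NumberField IsDedekindDomain

namespace Vale.Agent.P011UTW

open Vale.Agent.P011 Vale.Agent.P011L Vale.Agent.P011LD Vale.Agent.P011LQ Vale.Agent.P011.W
  Vale.Agent.P011U Vale.Agent.P011UHT Vale.Agent.P011.H738 Vale.Agent.P011.H271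

/-- The Galois group acts on the roots of unity through a group of order prime to `l`. -/
def Un (l N : ℕ) (F Ω : Type) [Field F] [Field Ω] [Algebra F Ω] : Prop :=
  ∀ τ : Gal(Ω/F), ∃ c, l.Coprime c ∧ ∀ ζ : Ω, ζ ^ N = 1 → (τ ^ c) ζ = ζ

variable {l N N' : ℕ}

theorem Un.mono {F Ω : Type} [Field F] [Field Ω] [Algebra F Ω] (h : Un l N F Ω) (d : N' ∣ N) :
    Un l N' F Ω := fun τ => (h τ).imp fun _ e => ⟨e.1, fun ζ m => e.2 ζ (by
  obtain ⟨a, rfl⟩ := d
  rw [pow_mul, m, one_pow])⟩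

theorem res_pow {F W Ω R : Type} [Field F] [Field W] [Field Ω] [Field R] [Algebra F W] [Algebra R Ω]
    (j : W →+* Ω) {ρ : Gal(W/F)} {τ : Gal(Ω/R)} (h : ∀ w, j (ρ w) = τ (j w)) (i : ℕ) (w : W) :
    j ((ρ ^ i) w) = (τ ^ i) (j w) := by
  induction i with
  | zero => rfl
  | succ i ih => rw [pow_succ', pow_succ', AlgEquiv.mul_apply, AlgEquiv.mul_apply, h, ih]

theorem un_of {F K R : Type} [Field F] [Field K] [Algebra F K] [IsSepClosure F K] [Field R]
    (φ : F →+* R) (h0 : N ≠ 0) (h : Un l N F K) : Un l N R (SeparableClosure R) := by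
  intro τ
  have := IsSepClosure.sep_closed F (K := K)
  let Ω := SeparableClosure R
  let _ : Algebra F R := φ.toAlgebra
  let _ : Algebra F Ω := ((algebraMap R Ω).comp φ).toAlgebra
  have : IsScalarTower F R Ω := IsScalarTower.of_algebraMap_eq fun _ => rfl
  let ι : K →ₐ[F] Ω := IsSepClosed.lift
  let _ : Algebra K Ω := ι.toRingHom.toAlgebra
  have : IsScalarTower F K Ω := IsScalarTower.of_algebraMap_eq fun c => (ι.commutes c).symm
  obtain ⟨c, c1, c2⟩ := h ((τ.restrictScalars F).restrictNormal K)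
  refine ⟨c, c1, fun ζ m => ?_⟩
  have o0 : NeZero (orderOf ζ) := ⟨(isOfFinOrder_iff_pow_eq_one.2
    ⟨N, Nat.pos_of_ne_zero h0, m⟩).orderOf_pos.ne'⟩
  have o1 := (IsPrimitiveRoot.orderOf ζ).neZero'
  have : NeZero ((orderOf ζ : ℕ) : K) := ⟨fun e => o1.out (by
    rw [← map_natCast ι.toRingHom, e, map_zero])⟩
  obtain ⟨z, hz⟩ := HasEnoughRootsOfUnity.exists_primitiveRoot K (orderOf ζ)
  obtain ⟨i, -, e⟩ := (hz.map_of_injective (f := ι.toRingHom)
    ι.toRingHom.injective).eq_pow_of_pow_eq_one (pow_orderOf_eq_one ζ)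
  have z1 : z ^ N = 1 := (hz.pow_eq_one_iff_dvd N).2 (orderOf_dvd_of_pow_eq_one m)
  rw [← e, map_pow, ← res_pow (τ := τ) ι.toRingHom
    (fun x => AlgEquiv.restrictNormal_commutes (τ.restrictScalars F) K x), c2 z z1]

theorem mem_of_cop {G : Type} [Group G] {S : Subgroup G} {g : G} {c : ℕ} (h : l.Coprime c)
    (a : g ^ l ∈ S) (b : g ^ c ∈ S) : g ∈ S := by
  have e := Nat.gcd_eq_gcd_ab l c
  rw [h, Nat.cast_one] at e
  rw [← zpow_one g, e, zpow_add, zpow_mul, zpow_mul, zpow_natCast, zpow_natCast]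
  exact S.mul_mem (S.zpow_mem a _) (S.zpow_mem b _)

theorem loc (hl : l.Prime) {R E : Type} [NontriviallyNormedField R] [IsUltrametricDist R]
    [ProperSpace R] [i : DivisionRing E] [j : Algebra R E] [FiniteDimensional R E]
    [Algebra.IsCentral R E] {q : ℕ} (d : q ∣ l) (hq : finrank R E = q ^ 2) : ∃ N ≠ 0,
    ∀ (R' : Type) [Field R'] (φ : R →+* R'), Un l N R' (SeparableClosure R') → Spl E q φ := by
  rcases (Nat.dvd_prime hl).1 d with rfl | rfl
  · exact ⟨1, one_ne_zero, fun R' _ φ _ =>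
      (spl_of_maxfield hq (finrank_self R) (Algebra.ofId R E)).comp φ⟩
  obtain ⟨i', j', rfl, hj, _, ⟨F⟩⟩ := local_ind (k := R) (E := E)
  obtain rfl := eq_of_heq hj
  obtain ⟨W, _, _, _, ⟨C⟩⟩ := exists_cyc (k := R) F
  have hW : finrank R W = q := (cyc_deg C).2.trans
    (Nat.pow_left_injective two_ne_zero (hq.symm.trans (cyc_deg C).1)).symm
  have : IsGalois R W := IsGalois.of_fixedField_eq_bot R W (eq_bot_iff.2 fun x hx =>
    C.exists_base (hx ⟨AlgEquiv.ofBijective C.σ C.σ.bijective, trivial⟩))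
  refine ⟨F.N, F.hN.ne', fun R' _ φ u => ?_⟩
  let Ω := SeparableClosure R'
  let _ : Algebra R R' := φ.toAlgebra
  let _ : Algebra R Ω := ((algebraMap R' Ω).comp φ).toAlgebra
  have : IsScalarTower R R' Ω := IsScalarTower.of_algebraMap_eq fun _ => rfl
  let ι : W →ₐ[R] Ω := IsSepClosed.lift
  let _ : Algebra W Ω := ι.toRingHom.toAlgebra
  have : IsScalarTower R W Ω := IsScalarTower.of_algebraMap_eq fun c => (ι.commutes c).symm
  obtain ⟨ψ, hψ⟩ := descend ι.toRingHom (algebraMap R' Ω) (algebraMap R' Ω).injective fun w =>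
    fixed_top fun τ => by
      obtain ⟨c, c1, c2⟩ := u τ
      have a : τ ∈ MulAction.stabilizer Gal(Ω/R') (ι C.ω) := mem_of_cop c1 (by
        have := res_pow (τ := τ) ι.toRingHom
          (fun x => AlgEquiv.restrictNormal_commutes (τ.restrictScalars R) W x) q C.ω
        rw [← hW, ← IsGalois.card_aut_eq_finrank, pow_card_eq_one', IsGalois.card_aut_eq_finrank,
          hW] at this
        exact this.symm) (c2 _ (by
          rw [← map_pow, C.inj (show C.ι (C.ω ^ F.N) = C.ι 1 by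
            rw [map_pow, C.hω, F.ζN, map_one]), map_one]))
      obtain ⟨p, rfl⟩ := C.gen w
      change (τ.restrictScalars R).toAlgHom (ι _) = ι _
      rw [← Polynomial.aeval_algHom_apply, ← Polynomial.aeval_algHom_apply]
      exact congrArg (Polynomial.aeval · p) a
  have e : ψ.comp (algebraMap R W) = φ := RingHom.ext fun c =>
    (algebraMap R' Ω).injective ((hψ _).trans (ι.commutes c))
  exact e ▸ (spl_of_maxfield hq hW C.ι).comp ψ

variable {k K : Type} [Field k] [Field K] [Algebra k K] [IsSepClosure k K]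

theorem brk (hk : Glob k) (hr : NoR k) (hl : l.Prime) {n : Type} [Fintype n] [DecidableEq n]
    [Nonempty n] {A : Gal(K/k) → GL n K} {m : Gal(K/k) → K} (h : PA ⊤ l A m) : ∃ N ≠ 0,
    ∀ r : K, Un l N k⟮r⟯ K → Sp {σ | σ r = r} A := by
  classical
  obtain ⟨d, D, _, _, _, _, hD, h1, h2⟩ := P011UQ6.ldv k K n l A m h
  have key : ∀ (R : Type) [NontriviallyNormedField R] [IsUltrametricDist R] [ProperSpace R]
      [Algebra k R], ∃ N ≠ 0, ∀ (R' : Type) [Field R'] (φ : R →+* R'),
      Un l N R' (SeparableClosure R') → Spl D d (φ.comp (algebraMap k R)) := fun R _ _ _ _ => by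
    obtain ⟨q, E, _, _, _, _, a, b, c⟩ := h1 R
    exact (loc hl a b).imp fun N e => ⟨e.1, fun R' _ φ u => (c R' φ).2 (e.2 R' φ u)⟩
  have fd : ∀ r : K, FiniteDimensional k k⟮r⟯ := fun r =>
    adjoin.finiteDimensional (Algebra.IsIntegral.isIntegral r)
  have sc : ∀ r : K, IsSepClosure k⟮r⟯ K := fun r =>
    ⟨IsSepClosure.sep_closed k, Algebra.isSeparable_tower_top_of_isSeparable k _ K⟩
  rcases hk with hk | ⟨F, _, _, _, _⟩
  · obtain ⟨S, hS, h3⟩ := spl_almost (deg_pos hD) hD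
    choose M M0 hM using fun w : HeightOneSpectrum (𝓞 k) =>
      @key (w.adicCompletion k) (Even.nnf w) (Even.isUltra w) (Even.properSpace_compl w) _
    have N0 := Finset.prod_ne_zero_iff.2 fun w (_ : w ∈ hS.toFinset) => M0 w
    refine ⟨_, N0, fun r u => h2 r ?_⟩
    have := fd r
    have := sc r
    have := NumberField.of_module_finite k k⟮r⟯
    refine Tpl.H359.abhn_gen hD k⟮r⟯ (fun w' => ?_) fun _ ψ => (hr.false (ψ.comp (algebraMap k _))).elim
    obtain ⟨w, hw⟩ := Arith.exists_below (F := k) w'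
    by_cases e : w ∈ S
    · obtain ⟨g, hg⟩ := completion_map hw
      exact (RingHom.ext hg : g.comp _ = pl (F := k) k⟮r⟯ w') ▸ hM w _ g
        ((un_of (algebraMap _ _) N0 u).mono (Finset.dvd_prod_of_mem _ (hS.mem_toFinset.2 e)))
    · exact h3 w e _ w' hw
  · have := GFF.mk' F k
    obtain ⟨S, h3⟩ := H380.Good7.exists_spl_setF hD
    choose M M0 hM using fun v : Place k => @key v.comp (nnfPlace v) (isUltra v) (instProper v) _
    have N0 := Finset.prod_ne_zero_iff.2 fun v (_ : v ∈ S) => M0 v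
    refine ⟨_, N0, fun r u => h2 r ?_⟩
    have := fd r
    have := sc r
    have : GFF k⟮r⟯ := Hey.H63.gff_of_finite (k := k)
    refine H279.Sq.spl_of_local hD k⟮r⟯ fun W => ?_
    obtain ⟨v, e, he, hvW⟩ := Hey.H63.exists_below (k := k) W
    obtain ⟨φ, hφ⟩ := Hey.H63.exists_compHom v W he hvW
    rw [← show φ.comp (algebraMap k v.comp) = (algebraMap _ W.comp).comp (algebraMap k k⟮r⟯) from
      RingHom.ext hφ]
    by_cases e : v ∈ S
    · exact hM v _ φ ((un_of (algebraMap _ _) N0 u).mono (Finset.dvd_prod_of_mem _ e))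
    · exact (h3 v e).comp φ

end Vale.Agent.P011UTW
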